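import Mathlib

/-!
# Paving over MASAs of tracial von Neumann algebras: shared definitions

A MASA `A` of a von Neumann algebra `M` on `H` with a faithful normal tracial state, written as
`x ↦ ∑ k, ⟪ξ k, x (ξ k)⟫`.
-/

open scoped ComplexOrder InnerProductSpace

noncomputable section

namespace Vale.Agent.P078.Tr

universe u

variable {H : Type u} [NormedAddCommGroup H] [InnerProductSpace ℂ H] [CompleteSpace H]

/-- Bounded operators on `H`. -/
abbrev Op (H : Type u) [NormedAddCommGroup H] [InnerProductSpace ℂ H] := H →L[ℂ] H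

/-- A maximal abelian `*`-subalgebra `A` of `M`, and a faithful normal tracial state on `M`. -/
structure Tracial (H : Type u) [NormedAddCommGroup H] [InnerProductSpace ℂ H]
    [CompleteSpace H] where
  /-- The von Neumann algebra. -/
  M : VonNeumannAlgebra H
  /-- The MASA. -/
  A : StarSubalgebra ℂ (Op H)
  le : ∀ a ∈ A, a ∈ M
  comm : ∀ a ∈ A, ∀ b ∈ A, a * b = b * a
  masa : ∀ x ∈ M, (∀ a ∈ A, x * a = a * x) → x ∈ A
  /-- The vectors giving the trace. -/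
  vec : ℕ → H
  norm_one : HasSum (fun k => ‖vec k‖ ^ 2) 1
  separating : ∀ x ∈ M, (∀ k, x (vec k) = 0) → x = 0
  trace : ∀ x ∈ M, ∀ y ∈ M,
    (∑' k, ⟪vec k, (x * y) (vec k)⟫_ℂ) = ∑' k, ⟪vec k, (y * x) (vec k)⟫_ℂ

namespace Tracial

variable (S : Tracial H)

/-- The trace. -/
def tau (x : Op H) : ℂ := ∑' k, ⟪S.vec k, x (S.vec k)⟫_ℂ

/-- The real part of the trace. -/
def tr (x : Op H) : ℝ := (S.tau x).re

/-- The trace preserving conditional expectation onto `A`. -/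
def E (x : Op H) : Op H :=
  Classical.epsilon fun a => a ∈ S.A ∧ ∀ b ∈ S.A, S.tau (b * a) = S.tau (b * x)

end Tracial

/-- A finite partition of the unit in `A` (zero pieces allowed). -/
structure Part (S : Tracial H) where
  /-- The number of pieces. -/
  n : ℕ
  /-- The pieces. -/
  p : Fin n → Op H
  mem : ∀ i, p i ∈ S.A
  proj : ∀ i, IsStarProjection (p i)
  orth : ∀ i j, i ≠ j → p i * p j = 0
  sum_eq : ∑ i, p i = 1

/-- `Q` is finer than `P`. -/
def Part.Refines {S : Tracial H} (Q P : Part S) : Prop :=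
  ∀ j, ∃ i, P.p i * Q.p j = Q.p j

/-- The pinching by a partition. -/
def Part.pinch {S : Tracial H} (P : Part S) (x : Op H) : Op H := ∑ i, P.p i * x * P.p i

/-- Facts about the trace and the expectation, proved in module `Basics`. -/
structure Basics (S : Tracial H) : Prop where
  tau_comm : ∀ x ∈ S.M, ∀ y ∈ S.M, S.tau (x * y) = S.tau (y * x)
  tau_nonneg : ∀ x ∈ S.M, 0 ≤ x → 0 ≤ S.tau x
  tau_faithful : ∀ x ∈ S.M, 0 ≤ x → S.tau x = 0 → x = 0
  E_mem : ∀ x ∈ S.M, S.E x ∈ S.A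
  E_tau : ∀ x ∈ S.M, ∀ b ∈ S.A, S.tau (b * S.E x) = S.tau (b * x)
  E_add : ∀ x ∈ S.M, ∀ y ∈ S.M, S.E (x + y) = S.E x + S.E y
  E_smul : ∀ (c : ℂ), ∀ x ∈ S.M, S.E (c • x) = c • S.E x
  E_star : ∀ x ∈ S.M, S.E (star x) = star (S.E x)
  E_self : ∀ a ∈ S.A, S.E a = a
  E_mul : ∀ a ∈ S.A, ∀ x ∈ S.M, S.E (a * x) = a * S.E x ∧ S.E (x * a) = a * S.E x
  E_nonneg : ∀ x ∈ S.M, 0 ≤ x → 0 ≤ S.E x
  E_norm : ∀ x ∈ S.M, ‖S.E x‖ ≤ ‖x‖
  pinch_tendsto : ∀ x ∈ S.M, ∀ η > (0 : ℝ), ∃ P₀ : Part S, ∀ P : Part S, P.Refines P₀ →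
    S.tr (star (P.pinch x - S.E x) * (P.pinch x - S.E x)) ≤ η

/-- Module Basics. -/
def BasicsStatement : Prop :=
  ∀ (H : Type u) [NormedAddCommGroup H] [InnerProductSpace ℂ H] [CompleteSpace H]
    (S : Tracial H), Basics S

/-! ### Maps and forms -/

/-- A list of pairs `(X, Y)` standing for `b ↦ ∑ E (X b Y)`. -/
structure KMap (S : Tracial H) where
  /-- The pairs. -/
  terms : List (Op H × Op H)
  mem : ∀ t ∈ terms, t.1 ∈ S.M ∧ t.2 ∈ S.M

/-- The value of a map. -/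
def KMap.apply {S : Tracial H} (K : KMap S) (b : Op H) : Op H :=
  (K.terms.map fun t => S.E (t.1 * b * t.2)).sum

/-- A list of terms standing for a quadratic form on `A`: `(X, Y)` gives `τ (X b* Y b)` and
`(h, X, Y, X', Y')` gives `τ (h E (X b* Y) E (X' b Y'))`. -/
structure QForm (S : Tracial H) where
  /-- Terms with one expectation. -/
  simple : List (Op H × Op H)
  /-- Terms with two expectations. -/
  double : List (Op H × Op H × Op H × Op H × Op H)
  simple_mem : ∀ t ∈ simple, t.1 ∈ S.M ∧ t.2 ∈ S.M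
  double_mem : ∀ t ∈ double,
    t.1 ∈ S.A ∧ t.2.1 ∈ S.M ∧ t.2.2.1 ∈ S.M ∧ t.2.2.2.1 ∈ S.M ∧ t.2.2.2.2 ∈ S.M

/-- The value of a form. -/
def QForm.eval {S : Tracial H} (Φ : QForm S) (b : Op H) : ℝ :=
  (Φ.simple.map fun t => S.tr (t.1 * star b * t.2 * b)).sum +
    (Φ.double.map fun t => S.tr (t.1 * S.E (t.2.1 * star b * t.2.2.1) *
      S.E (t.2.2.2.1 * b * t.2.2.2.2))).sum

/-! ### The covariance step -/

/-- Module Covariance: for a row of maps `R` (one equation at each point of `e₀`), slacks `ε` and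
finitely many positive forms and weights, finitely many vectors `f j` of self-adjoint fields whose
covariance is killed by `R`, is at most `D` against every form, keeps at least `(1 - ε) D` on the
diagonal, and loses at most twice the number of equations. -/
def CovStatement : Prop :=
  ∀ (H : Type u) [NormedAddCommGroup H] [InnerProductSpace ℂ H] [CompleteSpace H] (S : Tracial H)
    (r : ℕ) (R : Fin r → KMap S) (e₀ : Op H) (e ε : Fin r → Op H) (c₀ ρ : ℝ)
    (Φs : List (Fin r × QForm S)) (ws : List (Fin r × Op H)),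
    Basics S → 0 < c₀ → 0 < ρ →
    e₀ ∈ S.A → IsStarProjection e₀ →
    (∀ c, e c ∈ S.A ∧ IsStarProjection (e c) ∧ ε c ∈ S.A ∧ c₀ • e c ≤ ε c ∧ ε c ≤ e c) →
    (∀ c, ∀ b ∈ S.A, e₀ * (R c).apply b = (R c).apply b ∧
      (IsSelfAdjoint b → IsSelfAdjoint ((R c).apply b))) →
    (∀ t ∈ Φs, ∀ b ∈ S.A, 0 ≤ t.2.eval b) →
    (∀ t ∈ ws, t.2 ∈ S.A ∧ 0 ≤ t.2) →
    ∃ (D : Fin r → Op H) (n : ℕ) (f : Fin n → Fin r → Op H),
      (∀ c, D c ∈ S.A ∧ 0 ≤ D c ∧ D c ≤ e c) ∧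
      (∀ j c, f j c ∈ S.A ∧ IsSelfAdjoint (f j c) ∧ e c * f j c = f j c) ∧
      (∀ c, ∑ j, f j c * f j c ≤ (2 : ℝ) • (1 : Op H)) ∧
      ∑ j, S.tr ((∑ c, (R c).apply (f j c)) * (∑ c, (R c).apply (f j c))) ≤ ρ ∧
      (∀ t ∈ Φs, ∀ P₀ : Part S, ∃ P : Part S, P.Refines P₀ ∧
        ∑ j, t.2.eval (f j t.1) ≤ ∑ i, t.2.eval (CFC.sqrt (D t.1) * P.p i) + ρ) ∧
      (∀ t ∈ ws,
        S.tr (t.2 * D t.1 * (1 - ε t.1)) - ρ ≤ ∑ j, S.tr (t.2 * (f j t.1 * f j t.1)) ∧
        ∑ j, S.tr (t.2 * (f j t.1 * f j t.1)) ≤ S.tr (t.2 * D t.1) + ρ) ∧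
      ∑ c, S.tr ((e c - D c) * ε c) ≤ 2 * S.tr e₀ + ρ

/-! ### One colour at one step -/

/-- The slack of a coordinate is `kK * p * f`. -/
def kK : ℝ := 16

/-- The coefficient of `p ^ 2` in the potential. -/
def kB : ℝ := 204

/-- The maximum of two commuting self-adjoint operators. -/
def opMax (x y : Op H) : Op H := (2⁻¹ : ℝ) • (x + y + CFC.abs (x - y))

/-- The live part of one colour: the support `e`, the weight `a` and the two resolvents. -/
structure Side (S : Tracial H) where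
  /-- The live coordinates. -/
  e : Op H
  /-- The weight. -/
  a : Op H
  /-- The resolvents. -/
  G : Bool → Op H

namespace Side

variable {S : Tracial H} (d : Side S)

/-- The expectation of a resolvent. -/
def g (s : Bool) : Op H := S.E (d.G s)

/-- Its inverse. -/
def gi (s : Bool) : Op H := Ring.inverse (d.g s)

/-- The Schur term. -/
def xi (s : Bool) : Op H := d.a - d.gi s

/-- The first derivative of `xi`. -/
def L (s : Bool) (b : Op H) : Op H := b - d.gi s * d.gi s * S.E (d.G s * b * d.G s)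

/-- The mass. -/
def p : Op H := Ring.inverse d.a

/-- The potential of the mass. -/
def pot : Op H := d.p + kB • (d.p * d.p)

/-- Its derivative. -/
def pot' : Op H := 1 + (2 * kB) • d.p

/-- The factor of the Schur terms. -/
def fz : Op H := 1 - d.xi false - d.xi true

/-- The slack. -/
def eps : Op H := d.e * (kK • (d.p * d.fz))

/-- The first variation of the potential. -/
def row (b : Op H) : Op H :=
  d.e * (-(d.fz * d.pot' * d.p * b) - d.pot * (d.L false (d.a * b) + d.L true (d.a * b)))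

/-- The drift. -/
def mu (D : Op H) : Op H := D * (d.a * d.a) * opMax (opMax (d.g false) (d.g true)) d.p

/-- The second variation of `xi`. -/
def xi2 (s : Bool) (D : Op H) {n : ℕ} (f : Fin n → Op H) : Op H :=
  d.mu D + d.gi s * d.gi s * (-(S.E (d.G s * d.mu D * d.G s)) +
      ∑ j, S.E (d.G s * (d.a * f j) * d.G s * (d.a * f j) * d.G s)) -
    d.gi s * d.gi s * d.gi s *
      ∑ j, S.E (d.G s * (d.a * f j) * d.G s) * S.E (d.G s * (d.a * f j) * d.G s)

/-- The second variation of the potential. -/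
def second (D : Op H) {n : ℕ} (f : Fin n → Op H) : Op H :=
  d.e * (d.fz * (d.pot' * (-(d.mu D * (d.p * d.p)) + d.p * ∑ j, f j * f j) +
        kB • (d.p * d.p * ∑ j, f j * f j)) -
      d.pot * (d.xi2 false D f + d.xi2 true D f) +
      d.pot' * d.p * ∑ j, f j * (d.L false (d.a * f j) + d.L true (d.a * f j)))

/-- The invariants of a live colour; `c₀` is the lower cutoff. -/
structure Valid (c₀ : ℝ) : Prop where
  e_mem : d.e ∈ S.A
  e_proj : IsStarProjection d.e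
  a_mem : d.a ∈ S.A
  a_sa : IsSelfAdjoint d.a
  a_unit : IsUnit d.a
  G_mem : ∀ s, d.G s ∈ S.M
  G_nonneg : ∀ s, 0 ≤ d.G s
  G_unit : ∀ s, IsUnit (d.G s)
  p_lo : c₀ • d.e ≤ d.e * d.p
  p_hi : d.e * d.p ≤ (1 / 480 : ℝ) • d.e
  fz_lo : c₀ • d.e ≤ d.e * d.fz
  xi_lo : ∀ s, -(1 / 100 : ℝ) • d.e ≤ d.e * d.xi s
  K_hi : ∀ s, d.e * S.E (Ring.inverse (d.G s)) ≤ d.e * d.a + (1 / 100 : ℝ) • d.e

end Side

/-- Module Drift: against suitable positive forms and weights, a covariance below `D` makes the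
second variation of the potential at least `D p² f`. -/
def DriftStatement : Prop :=
  ∀ (H : Type u) [NormedAddCommGroup H] [InnerProductSpace ℂ H] [CompleteSpace H] (S : Tracial H)
    (d : Side S) (c₀ : ℝ) (w : Op H),
    Basics S → 0 < c₀ → d.Valid c₀ → w ∈ S.A → 0 ≤ w →
    ∃ (Φs : List (QForm S)) (ws : List (Op H)) (C : ℝ),
      (∀ Φ ∈ Φs, ∀ b ∈ S.A, 0 ≤ Φ.eval b) ∧ (∀ w' ∈ ws, w' ∈ S.A ∧ 0 ≤ w') ∧
      ∀ (D : Op H) (n : ℕ) (f : Fin n → Op H) (ρ : ℝ),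
        0 ≤ ρ → D ∈ S.A → 0 ≤ D → D ≤ d.e →
        (∀ j, f j ∈ S.A ∧ IsSelfAdjoint (f j) ∧ d.e * f j = f j) →
        (∀ Φ ∈ Φs, ∀ P₀ : Part S, ∃ P : Part S, P.Refines P₀ ∧
          ∑ j, Φ.eval (f j) ≤ ∑ i, Φ.eval (CFC.sqrt D * P.p i) + ρ) →
        (∀ w' ∈ ws, S.tr (w' * D * (1 - d.eps)) - ρ ≤ ∑ j, S.tr (w' * (f j * f j)) ∧
          ∑ j, S.tr (w' * (f j * f j)) ≤ S.tr (w' * D) + ρ) →
        S.tr (w * (d.e * (D * (d.p * d.p) * d.fz))) - C * ρ ≤ S.tr (w * d.second D f)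

/-! ### The target -/

/-- `x` is `(ε, r)` so-pavable over `A` inside `M`. -/
def SoPavable (S : Tracial H) (x : Op H) (ε : ℝ) (r : ℕ) : Prop :=
  ∀ (F : Finset H) (δ : ℝ), 0 < δ →
    ∃ (p : Fin r → Op H) (a q : Op H),
      (∀ i, p i ∈ S.A ∧ IsStarProjection (p i)) ∧ (∀ i j, i ≠ j → p i * p j = 0) ∧ ∑ i, p i = 1 ∧
      a ∈ S.A ∧ IsSelfAdjoint a ∧ ‖a‖ ≤ ‖x‖ ∧ q ∈ S.M ∧ IsStarProjection q ∧
      (∀ v ∈ F, ‖(1 - q) v‖ < δ) ∧
      ‖q * (∑ i, p i * x * p i - a) * q‖ ≤ ε * ‖x‖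

/-- Main theorem: `n ≤ C ε⁻²` for every MASA of every von Neumann algebra with a faithful normal
tracial state. -/
def TracialPavingStatement : Prop :=
  ∃ C : ℝ, ∀ (H : Type u) [NormedAddCommGroup H] [InnerProductSpace ℂ H] [CompleteSpace H]
    (S : Tracial H) (x : Op H) (ε : ℝ), x ∈ S.M → IsSelfAdjoint x → 0 < ε → ε < 1 →
    ∀ r : ℕ, C / ε ^ 2 ≤ r → SoPavable S x ε r

end Vale.Agent.P078.Tr
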