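import Mathlib
import Vale.Agent.P078.Tr.Defs
import Vale.Agent.P078.Tr.Basics.Expect

/-!
# Module Basics: the trace and the conditional expectation
-/

open scoped ComplexOrder InnerProductSpace ComplexConjugate

noncomputable section

namespace Vale.Agent.P078.Tr

universe u

variable {H : Type u} [NormedAddCommGroup H] [InnerProductSpace ℂ H] [CompleteSpace H]

namespace Tracial

variable (S : Tracial H)

lemma eq_of_tau {a c : Op H} (ha : a ∈ S.A) (hc : c ∈ S.A)
    (h : ∀ b ∈ S.A, S.tau (b * a) = S.tau (b * c)) : a = c := by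
  refine sub_eq_zero.1 (S.eq_zero_of_sq_eq_zero (S.le _ (sub_mem ha hc)) ?_)
  rw [tr, mul_sub, S.tau_sub, h _ (star_mem (sub_mem ha hc)), sub_self, Complex.zero_re]

lemma E_spec {x : Op H} (hx : x ∈ S.M) :
    S.E x ∈ S.A ∧ ∀ b ∈ S.A, S.tau (b * S.E x) = S.tau (b * x) := by
  obtain ⟨a, ha, -, ht, -⟩ := S.exists_expect hx
  exact Classical.epsilon_spec (p := fun a => a ∈ S.A ∧ ∀ b ∈ S.A, S.tau (b * a) = S.tau (b * x))
    ⟨a, ha, ht⟩

lemma E_eq {x a : Op H} (hx : x ∈ S.M) (ha : a ∈ S.A)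
    (h : ∀ b ∈ S.A, S.tau (b * a) = S.tau (b * x)) : S.E x = a :=
  S.eq_of_tau (S.E_spec hx).1 ha fun b hb => ((S.E_spec hx).2 b hb).trans (h b hb).symm

lemma E_props {x : Op H} (hx : x ∈ S.M) :
    ‖S.E x‖ ≤ ‖x‖ ∧ (0 ≤ x → 0 ≤ S.E x) ∧
      ∀ η > (0 : ℝ), ∃ P₀ : Part S, ∀ P : Part S, P.Refines P₀ →
        S.tr (star (P.pinch x - S.E x) * (P.pinch x - S.E x)) ≤ η := by
  obtain ⟨a, ha, hn, ht, hpos, hpin⟩ := S.exists_expect hx
  rw [S.E_eq hx ha ht]
  exact ⟨hn, hpos, hpin⟩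

end Tracial

theorem basics : BasicsStatement.{u} := by
  intro H _ _ _ S
  refine
    { tau_comm := fun x hx y hy => S.trace x hx y hy
      tau_nonneg := fun x _ h => S.tau_nonneg' h
      tau_faithful := fun x hx h0 h => S.tau_faithful' hx h0 h
      E_mem := fun x hx => (S.E_spec hx).1
      E_tau := fun x hx b hb => (S.E_spec hx).2 b hb
      E_add := fun x hx y hy => ?_
      E_smul := fun c x hx => ?_
      E_star := fun x hx => ?_
      E_self := fun a ha => S.E_eq (S.le a ha) ha fun _ _ => rfl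
      E_mul := fun a ha x hx => ?_
      E_nonneg := fun x hx => (S.E_props hx).2.1
      E_norm := fun x hx => (S.E_props hx).1
      pinch_tendsto := fun x hx => (S.E_props hx).2.2 }
  · refine S.E_eq (add_mem hx hy) (add_mem (S.E_spec hx).1 (S.E_spec hy).1) fun b hb => ?_
    rw [mul_add, mul_add, S.tau_add, S.tau_add, (S.E_spec hx).2 b hb, (S.E_spec hy).2 b hb]
  · refine S.E_eq (S.smul_mem_M c hx) (S.A.smul_mem (S.E_spec hx).1 c) fun b hb => ?_
    rw [mul_smul_comm, mul_smul_comm, S.tau_smul, S.tau_smul, (S.E_spec hx).2 b hb]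
  · refine S.E_eq (star_mem hx) (star_mem (S.E_spec hx).1) fun b hb => ?_
    have h1 := congrArg conj ((S.E_spec hx).2 (star b) (star_mem hb))
    rw [← S.tau_star, ← S.tau_star, star_mul, star_mul, star_star] at h1
    rw [S.tau_comm' (S.le b hb) (star_mem (S.le _ (S.E_spec hx).1)),
      S.tau_comm' (S.le b hb) (star_mem hx)]
    exact h1
  · constructor
    · refine S.E_eq (mul_mem (S.le a ha) hx) (mul_mem ha (S.E_spec hx).1) fun b hb => ?_
      rw [← mul_assoc, ← mul_assoc, (S.E_spec hx).2 _ (mul_mem hb ha)]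
    · refine S.E_eq (mul_mem hx (S.le a ha)) (mul_mem ha (S.E_spec hx).1) fun b hb => ?_
      rw [← mul_assoc, (S.E_spec hx).2 _ (mul_mem hb ha), ← mul_assoc b x a, S.comm b hb a ha,
        mul_assoc a b x, S.tau_comm' (S.le a ha) (mul_mem (S.le b hb) hx)]

end Vale.Agent.P078.Tr
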