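import Vale.Agent.P078.Tr.Cov.Forms

/-! Module Covariance: the covariance step. -/

open Filter Topology
open scoped ComplexOrder InnerProductSpace

noncomputable section

namespace Vale.Agent.P078.Tr

universe u

attribute [local instance] InnerProductSpace.complexToReal

open Tracial
open ContinuousLinearMap (adjoint)

variable {H : Type u} [NormedAddCommGroup H] [InnerProductSpace ℂ H] [CompleteSpace H]
  {S : Tracial H}

lemma KMap.apply_mem (hB : Basics S) (K : KMap S) {b : Op H} (hb : b ∈ S.A) : K.apply b ∈ S.A := by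
  refine list_sum_mem fun x hx => ?_
  obtain ⟨t, ht, rfl⟩ := List.mem_map.1 hx
  exact hB.E_mem _ (mul_mem (mul_mem (K.mem t ht).1 (S.le _ hb)) (K.mem t ht).2)

lemma coe_sqrt_eq {a : S.saA} (h : ∀ χ, 0 ≤ val χ a) :
    CFC.sqrt (a : Op H) = (funA Real.sqrt a : Op H) := by
  have h2 : (0 : Op H) ≤ (funA Real.sqrt a : Op H) := saA_nonneg_iff.2 fun χ => by
    rw [val_funA χ Real.continuous_sqrt]; exact Real.sqrt_nonneg _
  refine CFC.sqrt_unique ?_ h2
  exact congrArg Subtype.val (mulA_sqrt h)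

/-- Against a positive operator the covariance is below `D`. -/
lemma Tracial.Cov.ell_le {hB : Basics S} {r : ℕ} {R : Fin r → S.LOp} {e lev : Fin r → S.saA}
    {act : S.saA} {γ η : ℝ} (C : Cov hB R e lev act γ η) {Z : S.LOp} (hZ : Z ∈ calc' hB)
    (hpos : ∀ v, 0 ≤ ⟪v, Z v⟫_ℝ) (c : Fin r) :
    ∑ d, ell (adjoint (C.T c d) * Z * C.T c d) ≤ ell (Z * mulOp hB (C.D c)) := by
  have hT := fun d => C.T_mem c d
  have hs := fun i => C.sqs_mem c i
  have h2 : 0 ≤ ∑ i, ell (Z * (adjoint (C.sqs c i) * C.sqs c i)) := by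
    refine Finset.sum_nonneg fun i _ => ?_
    rw [← mul_assoc, ell_mul_comm (mul_mem_calc hZ (adjoint_mem_calc (hs i))) (hs i), ← mul_assoc]
    refine ell_nonneg (mul_mem_calc (mul_mem_calc (hs i) hZ) (adjoint_mem_calc (hs i))) fun v => ?_
    rw [mul_apply_eq_comp, mul_apply_eq_comp, ← ContinuousLinearMap.adjoint_inner_left]
    exact hpos _
  rw [← C.sum c, mul_add, Finset.mul_sum, Finset.mul_sum,
    ell_add (sum_mem fun d _ => mul_mem_calc hZ (mul_mem_calc (hT d) (adjoint_mem_calc (hT d))))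
      (sum_mem fun i _ => mul_mem_calc hZ (mul_mem_calc (adjoint_mem_calc (hs i)) (hs i))),
    ell_sum _ _ (fun d _ => mul_mem_calc hZ (mul_mem_calc (hT d) (adjoint_mem_calc (hT d)))),
    ell_sum _ _ (fun i _ => mul_mem_calc hZ (mul_mem_calc (adjoint_mem_calc (hs i)) (hs i)))]
  refine le_trans (le_of_eq (Finset.sum_congr rfl fun d _ => ?_)) (le_add_of_nonneg_right h2)
  rw [mul_assoc, ell_mul_comm (adjoint_mem_calc (hT d)) (mul_mem_calc hZ (hT d)), mul_assoc]

/-- Against a weight the covariance keeps the diagonal up to the levels. -/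
lemma Tracial.Cov.le_ell {hB : Basics S} {r : ℕ} {R : Fin r → S.LOp} {e lev : Fin r → S.saA}
    {act : S.saA} {γ η : ℝ} (C : Cov hB R e lev act γ η) {w : S.saA} (hw : ∀ χ, 0 ≤ val χ w)
    (c : Fin r) :
    trA (mulA w (C.D c)) - trA (mulA w ((2 : ℝ) • mulA (lev c) (C.D c) + C.err c))
      ≤ ∑ d, ell (adjoint (C.T c d) * mulOp hB w * C.T c d) := by
  have hT := fun d => C.T_mem c d
  have hs := fun i => C.sqs_mem c i
  have hm := mulOp_mem hB w
  have e1 : ell (mulOp hB w * mulOp hB (C.D c)) = trA (mulA w (C.D c)) := by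
    rw [mulOp_mul, ell_mulOp_self]
  rw [← C.sum c, mul_add, Finset.mul_sum, Finset.mul_sum,
    ell_add (sum_mem fun d _ => mul_mem_calc hm (mul_mem_calc (hT d) (adjoint_mem_calc (hT d))))
      (sum_mem fun i _ => mul_mem_calc hm (mul_mem_calc (adjoint_mem_calc (hs i)) (hs i))),
    ell_sum _ _ (fun d _ => mul_mem_calc hm (mul_mem_calc (hT d) (adjoint_mem_calc (hT d)))),
    ell_sum _ _ (fun i _ => mul_mem_calc hm (mul_mem_calc (adjoint_mem_calc (hs i)) (hs i)))] at e1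
  have e2 : ∑ d, ell (mulOp hB w * (C.T c d * adjoint (C.T c d)))
      = ∑ d, ell (adjoint (C.T c d) * mulOp hB w * C.T c d) := Finset.sum_congr rfl fun d _ => by
    rw [mul_assoc (adjoint (C.T c d)),
      ell_mul_comm (adjoint_mem_calc (hT d)) (mul_mem_calc hm (hT d)), mul_assoc]
  linarith [C.diagonal c w hw]

/-- The value of a diagonal form at fields near the root of a covariance. -/
lemma form_near {r : ℕ} {T : Fin r → S.LOp} {P : Part S}
    {f : Fin r × Fin P.n → S.saA} (Z : S.LOp) {M θ : ℝ} (hM : ∑ d, ‖T d‖ ^ 2 ≤ M)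
    (h : ∑ j : Fin r × Fin P.n, ‖S.emb (f j) - T j.1 (cell P j.2)‖ ^ 2 ≤ θ) :
    |∑ j, ⟪S.emb (f j), Z (S.emb (f j))⟫_ℝ - ∑ d, pairing (T d) (Z * T d) P|
      ≤ ‖Z‖ * (Real.sqrt θ * (Real.sqrt θ + 2 * Real.sqrt M)) := by
  have e : ∑ j : Fin r × Fin P.n, ⟪T j.1 (cell P j.2), Z (T j.1 (cell P j.2))⟫_ℝ
      = ∑ d, pairing (T d) (Z * T d) P := by
    rw [Fintype.sum_prod_type]; rfl
  rw [← e]
  refine abs_form_sub_le Z _ _ ?_ h
  rw [Fintype.sum_prod_type]
  exact (Finset.sum_le_sum fun d _ => sq_le_norm (T d) P).trans hM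

/-- Fields nearly killed by the rows when the operators are. -/
lemma residual_near {r : ℕ} {R : Fin r → S.LOp} {T : Fin r → Fin r → S.LOp} {P : Part S}
    {f : Fin r → Fin r × Fin P.n → S.saA} {M θ : ℝ}
    (hM : ∑ d, ‖∑ c, R c * T c d‖ ^ 2 ≤ M)
    (h : ∀ c, ∑ j : Fin r × Fin P.n, ‖S.emb (f c j) - T c j.1 (cell P j.2)‖ ^ 2 ≤ θ) :
    ∑ j : Fin r × Fin P.n, ‖∑ c, R c (S.emb (f c j))‖ ^ 2
      ≤ ∑ d, pairing (∑ c, R c * T c d) (∑ c, R c * T c d) P
        + Real.sqrt ((∑ c, ‖R c‖ ^ 2) * (r * θ))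
          * (Real.sqrt ((∑ c, ‖R c‖ ^ 2) * (r * θ)) + 2 * Real.sqrt M) := by
  have e : ∀ u : Fin r × Fin P.n → S.L2, ∑ j, ⟪u j, (1 : S.LOp) (u j)⟫_ℝ = ∑ j, ‖u j‖ ^ 2 :=
    fun u => Finset.sum_congr rfl fun j _ => by
      rw [one_apply_eq_self, real_inner_self_eq_norm_sq]
  have hb := abs_form_sub_le (1 : S.LOp) (fun j => ∑ c, R c (S.emb (f c j)))
    (fun j : Fin r × Fin P.n => (∑ c, R c * T c j.1) (cell P j.2))
    (M := M) (θ := (∑ c, ‖R c‖ ^ 2) * (r * θ)) (by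
      rw [Fintype.sum_prod_type]
      exact (Finset.sum_le_sum fun d _ => sq_le_norm (∑ c, R c * T c d) P).trans hM) (by
      calc ∑ j : Fin r × Fin P.n,
            ‖∑ c, R c (S.emb (f c j)) - (∑ c, R c * T c j.1) (cell P j.2)‖ ^ 2
          ≤ ∑ j : Fin r × Fin P.n, (∑ c, ‖R c‖ ^ 2)
              * ∑ c, ‖S.emb (f c j) - T c j.1 (cell P j.2)‖ ^ 2 := by
            refine Finset.sum_le_sum fun j _ => ?_
            rw [sum_apply, ← Finset.sum_sub_distrib]
            refine (pow_le_pow_left₀ (norm_nonneg _) (norm_sum_le _ _) 2).trans ?_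
            refine le_trans (pow_le_pow_left₀ (Finset.sum_nonneg fun c _ => norm_nonneg _)
              (Finset.sum_le_sum fun c _ => ?_) 2) (Finset.sum_mul_sq_le_sq_mul_sq _ _ _)
            rw [mul_apply_eq_comp, ← map_sub]
            exact (R c).le_opNorm _
        _ ≤ _ := by
            rw [← Finset.mul_sum, Finset.sum_comm]
            refine mul_le_mul_of_nonneg_left ((Finset.sum_le_sum fun c _ => h c).trans ?_)
              (by positivity)
            simp)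
  rw [e, e] at hb
  have e2 : ∑ j : Fin r × Fin P.n, ‖(∑ c, R c * T c j.1) (cell P j.2)‖ ^ 2
      = ∑ d, pairing (∑ c, R c * T c d) (∑ c, R c * T c d) P := by
    simp only [pairing_self]
    rw [Fintype.sum_prod_type]; rfl
  have hn : ‖(1 : S.LOp)‖ ≤ 1 := ContinuousLinearMap.norm_id_le
  have hs : 0 ≤ Real.sqrt ((∑ c, ‖R c‖ ^ 2) * (r * θ))
      * (Real.sqrt ((∑ c, ‖R c‖ ^ 2) * (r * θ)) + 2 * Real.sqrt M) := by positivity
  linarith [(abs_le.1 hb).2, mul_le_of_le_one_left hs hn]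

theorem cov : CovStatement.{u} := by
  intro H _ _ _ S r R e₀ e ε c₀ ρ Φs ws hB hc₀ hρ he₀A he₀P he hR hΦ hw
  classical
  let act : S.saA := ⟨e₀, he₀A, he₀P.isSelfAdjoint⟩
  let eA : Fin r → S.saA := fun c => ⟨e c, (he c).1, (he c).2.1.isSelfAdjoint⟩
  have hεsa : ∀ c, IsSelfAdjoint (ε c) := fun c => IsSelfAdjoint.of_nonneg
    (le_trans (smul_nonneg hc₀.le (he c).2.1.nonneg) (he c).2.2.2.1)
  let εA : Fin r → S.saA := fun c => ⟨ε c, (he c).2.2.1, hεsa c⟩
  let lev : Fin r → S.saA := fun c => (2⁻¹ : ℝ) • εA c + (oneA S - eA c)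
  have heA : ∀ c, mulA (eA c) (eA c) = eA c := fun c =>
    Subtype.ext (he c).2.1.isIdempotentElem.eq
  have he01 : ∀ c χ, val χ (eA c) = 1 ∨ val χ (eA c) = 0 := fun c χ => by
    have h := congrArg (val χ) (heA c)
    rwa [val_mulA, mul_right_eq_self₀] at h
  have hεv : ∀ c χ, c₀ * val χ (eA c) ≤ val χ (εA c) ∧ val χ (εA c) ≤ val χ (eA c) := fun c χ =>
    ⟨by
      rw [← val_smul]
      exact (saA_le_iff (a := c₀ • eA c) (b := εA c)).1 (he c).2.2.2.1 χ,
      (saA_le_iff (a := εA c) (b := eA c)).1 (he c).2.2.2.2 χ⟩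
  have hlev : ∀ c χ, min (c₀ / 2) 1 ≤ val χ (lev c) := fun c χ => by
    simp only [lev, val_add, val_smul, val_sub, val_oneA]
    rcases he01 c χ with h | h
    · have := (hεv c χ).1
      rw [h] at this ⊢
      linarith [min_le_left (c₀ / 2) 1]
    · have := (hεv c χ).1
      rw [h] at this ⊢
      linarith [min_le_right (c₀ / 2) 1]
  -- rows
  let R' : Fin r → S.LOp := fun c => rowOp hB (R c)
  let Rv : Fin r → S.saA → S.saA := fun c a =>
    ⟨(R c).apply (a : Op H), (R c).apply_mem hB a.2.1, (hR c _ a.2.1).2 a.2.2⟩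
  have hRv : ∀ c a, R' c (S.emb a) = S.emb (Rv c a) := fun c a =>
    S.L2_ext (rowOp_emb hB (R c) a ((hR c _ a.2.1).2 a.2.2))
  have hsupp : ∀ c, mulOp hB act * R' c = R' c := fun c => S.LOp_ext fun a => by
    rw [mul_apply_eq_comp, hRv, mulOp_emb]
    congr 1
    exact Subtype.ext (hR c _ a.2.1).1
  -- constants
  set W : ℝ := (ws.map fun t => ‖t.2‖).sum with hW
  have hW0 : ∀ t ∈ ws, ‖t.2‖ ≤ W := fun t ht => List.single_le_sum
    (fun x hx => by obtain ⟨s, -, rfl⟩ := List.mem_map.1 hx; exact norm_nonneg _) _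
    (List.mem_map.2 ⟨t, ht, rfl⟩)
  have hWn : 0 ≤ W := List.sum_nonneg fun x hx => by
    obtain ⟨s, -, rfl⟩ := List.mem_map.1 hx; exact norm_nonneg _
  obtain ⟨C⟩ := exists_cov hB (R := R') (e := eA) (lev := lev) (act := act) (γ := ρ / 4)
    (η := ρ / (4 * (W + 1))) (m := min (c₀ / 2) 1) (fun c => rowOp_mem hB _)
    (Subtype.ext he₀P.isIdempotentElem.eq) hsupp heA (by positivity) hlev (by positivity)
    (by positivity)
  have hDe0 : ∀ c χ, (1 - val χ (eA c)) * val χ (C.D c) = 0 := fun c χ => by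
    rcases he01 c χ with h | h
    · rw [h, sub_self, zero_mul]
    · rw [le_antisymm (h ▸ C.D_le c χ) (C.D_nonneg c χ), mul_zero]
  have hle : ∀ c, ∀ h : S.saA, (∀ χ, 0 ≤ val χ h) →
      ∑ d, ell (adjoint (C.T c d) * mulOp hB h * C.T c d) ≤ trA h := fun c h hh => by
    refine (C.ell_le (mulOp_mem hB h) (inner_mulOp_nonneg hB hh) c).trans ?_
    rw [mulOp_mul, ell_mulOp_self]
    refine trA_mono fun χ => ?_
    rw [val_mulA]
    refine mul_le_of_le_one_right (hh χ) ((C.D_le c χ).trans ?_)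
    rcases he01 c χ with h' | h' <;> rw [h']; exact zero_le_one
  -- the closeness needed
  set M : ℝ := ∑ c, ∑ d, ‖C.T c d‖ ^ 2
  set M' : ℝ := ∑ d, ‖∑ c, R' c * C.T c d‖ ^ 2
  set B : ℝ := (Φs.map fun t => ‖formOp hB t.2‖).sum
    + (ws.map fun t => if h : t.2 ∈ S.A ∧ IsSelfAdjoint t.2 then ‖mulOp hB ⟨t.2, h⟩‖ else 0).sum
  have hB0 : 0 ≤ B := add_nonneg
    (List.sum_nonneg fun x hx => by obtain ⟨s, -, rfl⟩ := List.mem_map.1 hx; exact norm_nonneg _)
    (List.sum_nonneg fun x hx => by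
      obtain ⟨s, -, rfl⟩ := List.mem_map.1 hx
      split_ifs <;> [exact norm_nonneg _; exact le_rfl])
  have hcont : Tendsto (fun θ : ℝ => B * (Real.sqrt θ * (Real.sqrt θ + 2 * Real.sqrt M))
      + Real.sqrt ((∑ c, ‖R' c‖ ^ 2) * (r * θ))
        * (Real.sqrt ((∑ c, ‖R' c‖ ^ 2) * (r * θ)) + 2 * Real.sqrt M'))
      (𝓝[>] 0) (𝓝 0) := by
    refine tendsto_nhdsWithin_of_tendsto_nhds (Continuous.tendsto' (by fun_prop) 0 0 (by simp))
  obtain ⟨θ, hθe, hθ⟩ := ((hcont.eventually (eventually_le_nhds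
    (show (0 : ℝ) < ρ / 4 by positivity))).and self_mem_nhdsWithin).exists
  have hθ0 : (0 : ℝ) < θ := hθ
  have hZform : ∀ Z ∈ calc' hB, ∀ c, Tendsto
      (fun P => ∑ d, pairing (C.T c d) (Z * C.T c d) P) (fine S)
      (𝓝 (∑ d, ell (adjoint (C.T c d) * Z * C.T c d))) := fun Z hZ c =>
    tendsto_finsetSum _ fun d _ => by
      rw [mul_assoc]
      exact tendsto_pairing (C.T_mem c d) (mul_mem_calc hZ (C.T_mem c d))
  -- the eventual facts
  have hUm : ∀ d, ∑ c, R' c * C.T c d ∈ calc' hB := fun d =>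
    sum_mem fun c _ => mul_mem_calc (rowOp_mem hB _) (C.T_mem c d)
  have evR : ∀ᶠ P in fine S,
      ∑ d, pairing (∑ c, R' c * C.T c d) (∑ c, R' c * C.T c d) P ≤ ρ / 2 :=
    (tendsto_finsetSum _ fun d _ => tendsto_pairing (hUm d) (hUm d)).eventually
      (eventually_le_nhds (lt_of_le_of_lt C.residual (by linarith)))
  have evΦ : ∀ᶠ P in fine S, ∀ t ∈ Φs, ∑ d, pairing (C.T t.1 d) (formOp hB t.2 * C.T t.1 d) P
      ≤ ell (formOp hB t.2 * mulOp hB (C.D t.1)) + ρ / 4 := by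
    refine (eventually_all_finite (List.finite_toSet Φs)).2 fun t ht => ?_
    exact (hZform _ (formOp_mem hB t.2) t.1).eventually (eventually_le_nhds
      (lt_of_le_of_lt (C.ell_le (formOp_mem hB t.2) (formOp_nonneg hB t.2 (hΦ t ht)) t.1)
        (by linarith)))
  have hwsa : ∀ t ∈ ws, IsSelfAdjoint t.2 := fun t ht => IsSelfAdjoint.of_nonneg (hw t ht).2
  have evw : ∀ᶠ P in fine S, ∀ t ∈ ws, ∀ h : t.2 ∈ S.A ∧ IsSelfAdjoint t.2,
      |∑ d, pairing (C.T t.1 d) (mulOp hB ⟨t.2, h⟩ * C.T t.1 d) P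
        - ∑ d, ell (adjoint (C.T t.1 d) * mulOp hB ⟨t.2, h⟩ * C.T t.1 d)| ≤ ρ / 4 := by
    refine (eventually_all_finite (List.finite_toSet ws)).2 fun t ht => ?_
    filter_upwards [Metric.tendsto_nhds.1 (hZform _
      (mulOp_mem hB ⟨t.2, (hw t ht).1, hwsa t ht⟩) t.1) (ρ / 4) (by positivity)] with P hP _
    exact ((Real.dist_eq _ _).symm.trans_lt hP).le
  obtain ⟨P, ⟨⟨⟨f, hfe, hf2, hfθ⟩, hPR⟩, hPΦ⟩, hPw⟩ :=
    ((((exists_fields hB C.T_mem heA C.T_supp hle hθ0).and evR).and evΦ).and evw).exists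
  have hnear : ∀ c (Z : S.LOp), |∑ j, ⟪S.emb (f c j), Z (S.emb (f c j))⟫_ℝ
      - ∑ d, pairing (C.T c d) (Z * C.T c d) P|
        ≤ ‖Z‖ * (Real.sqrt θ * (Real.sqrt θ + 2 * Real.sqrt M)) := fun c Z =>
    form_near Z (Finset.single_le_sum (f := fun c => ∑ d, ‖C.T c d‖ ^ 2)
      (fun i _ => by positivity) (Finset.mem_univ c)) (hfθ c)
  have hsmall : ∀ x : ℝ, 0 ≤ x → x ≤ B →
      x * (Real.sqrt θ * (Real.sqrt θ + 2 * Real.sqrt M)) ≤ ρ / 4 := fun x _ hx => by
    refine le_trans ?_ hθe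
    have h1 := mul_le_mul_of_nonneg_right hx
      (show (0 : ℝ) ≤ Real.sqrt θ * (Real.sqrt θ + 2 * Real.sqrt M) by positivity)
    have h2 : 0 ≤ Real.sqrt ((∑ c, ‖R' c‖ ^ 2) * (r * θ))
        * (Real.sqrt ((∑ c, ‖R' c‖ ^ 2) * (r * θ)) + 2 * Real.sqrt M') := by positivity
    linarith
  have hres : Real.sqrt ((∑ c, ‖R' c‖ ^ 2) * (r * θ))
      * (Real.sqrt ((∑ c, ‖R' c‖ ^ 2) * (r * θ)) + 2 * Real.sqrt M') ≤ ρ / 4 := by
    refine le_trans (le_add_of_nonneg_left ?_) hθe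
    positivity
  let π : Fin (r * P.n) ≃ Fin r × Fin P.n := finProdFinEquiv.symm
  refine ⟨fun c => (C.D c : Op H), r * P.n, fun j c => (f c (π j) : Op H), fun c => ?_,
    fun j c => ?_, fun c => ?_, ?_, fun t ht P₀ => ?_, fun t ht => ?_, ?_⟩
  · exact ⟨(C.D c).2.1, saA_nonneg_iff.2 (C.D_nonneg c),
      (saA_le_iff (a := C.D c) (b := eA c)).2 (C.D_le c)⟩
  · exact ⟨(f c (π j)).2.1, (f c (π j)).2.2, congrArg Subtype.val (hfe c (π j))⟩
  · rw [Equiv.sum_comp π fun j => (f c j : Op H) * (f c j : Op H)]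
    have e2 : ∑ j, (f c j : Op H) * (f c j : Op H)
        = ((∑ j, mulA (f c j) (f c j) : S.saA) : Op H) := by
      rw [AddSubmonoidClass.coe_finsetSum]; rfl
    rw [e2]
    refine (saA_le_iff (b := (2 : ℝ) • oneA S)).2 fun χ => ?_
    simp only [val_sum, val_mulA, val_smul, val_oneA, mul_one, ← pow_two]
    exact hf2 c χ
  · rw [Equiv.sum_comp π fun j => S.tr ((∑ c, (R c).apply (f c j : Op H))
      * ∑ c, (R c).apply (f c j : Op H))]
    have e1 : ∀ j, S.tr ((∑ c, (R c).apply (f c j : Op H)) * ∑ c, (R c).apply (f c j : Op H))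
        = ‖∑ c, R' c (S.emb (f c j))‖ ^ 2 := by
      intro j
      simp only [hRv, ← map_sum, normSq_emb']
      rw [trA, coe_mulA, AddSubmonoidClass.coe_finsetSum]
    simp only [e1]
    linarith [residual_near (R := R') le_rfl hfθ (T := C.T)]
  · let Z := formOp hB t.2
    let s : S.saA := funA Real.sqrt (C.D t.1)
    have hlim : Tendsto (fun Q : Part S => pairing (mulOp hB s) (Z * mulOp hB s) Q) (fine S)
        (𝓝 (ell (Z * mulOp hB (C.D t.1)))) := by
      have h := tendsto_pairing (mulOp_mem hB s) (mul_mem_calc (formOp_mem hB t.2) (mulOp_mem hB s))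
      rw [adjoint_mulOp, ell_mul_comm (mulOp_mem hB s)
        (mul_mem_calc (formOp_mem hB t.2) (mulOp_mem hB s)), mul_assoc, mulOp_mul,
        mulA_sqrt (C.D_nonneg t.1)] at h
      exact h
    obtain ⟨Q, hQr, hQ⟩ := ((eventually_refines P₀).and (hlim.eventually
      (eventually_ge_nhds (sub_lt_self _ (show (0 : ℝ) < ρ / 4 by positivity))))).exists
    refine ⟨Q, hQr, ?_⟩
    have e1 : ∑ i, t.2.eval (CFC.sqrt (C.D t.1 : Op H) * Q.p i)
        = pairing (mulOp hB s) (Z * mulOp hB s) Q := by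
      refine Finset.sum_congr rfl fun i _ => ?_
      rw [mul_apply_eq_comp, cell_eq, mulOp_emb, inner_formOp, coe_sqrt_eq (C.D_nonneg t.1)]
      rfl
    rw [Equiv.sum_comp π fun j => t.2.eval (f t.1 j : Op H), e1]
    have e2 : ∑ j, t.2.eval (f t.1 j : Op H) = ∑ j, ⟪S.emb (f t.1 j), Z (S.emb (f t.1 j))⟫_ℝ :=
      Finset.sum_congr rfl fun j _ => (inner_formOp hB t.2 _).symm
    have hBt : ‖Z‖ ≤ B := le_trans (List.single_le_sum (fun x hx => by
      obtain ⟨u, -, rfl⟩ := List.mem_map.1 hx; exact norm_nonneg _) _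
      (List.mem_map.2 ⟨t, ht, rfl⟩)) (le_add_of_nonneg_right (List.sum_nonneg fun x hx => by
        obtain ⟨u, -, rfl⟩ := List.mem_map.1 hx
        split_ifs <;> [exact norm_nonneg _; exact le_rfl]))
    rw [e2]
    linarith [(abs_le.1 (hnear t.1 Z)).2, hsmall _ (norm_nonneg Z) hBt, hPΦ t ht]
  · let w : S.saA := ⟨t.2, (hw t ht).1, hwsa t ht⟩
    have hw0 : ∀ χ, 0 ≤ val χ w := (saA_nonneg_iff (a := w)).1 (hw t ht).2
    rw [Equiv.sum_comp π fun j => S.tr (t.2 * ((f t.1 j : Op H) * (f t.1 j : Op H)))]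
    have e1 : ∑ j, S.tr (t.2 * ((f t.1 j : Op H) * (f t.1 j : Op H)))
        = ∑ j, ⟪S.emb (f t.1 j), mulOp hB w (S.emb (f t.1 j))⟫_ℝ := by
      refine Finset.sum_congr rfl fun j _ => ?_
      rw [mulOp_emb, inner_emb', trA, coe_mulA, coe_mulA, ← mul_assoc (f t.1 j : Op H),
        S.comm _ (f t.1 j).2.1 _ w.2.1, mul_assoc]
    have hBw : ‖mulOp hB w‖ ≤ B := by
      refine le_trans ?_ (le_add_of_nonneg_left (List.sum_nonneg fun x hx => by
        obtain ⟨u, -, rfl⟩ := List.mem_map.1 hx; exact norm_nonneg _))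
      refine le_trans (le_of_eq ?_) (List.single_le_sum (fun x hx => by
        obtain ⟨u, -, rfl⟩ := List.mem_map.1 hx
        split_ifs <;> [exact norm_nonneg _; exact le_rfl]) _ (List.mem_map.2 ⟨t, ht, rfl⟩))
      rw [dif_pos ⟨(hw t ht).1, hwsa t ht⟩]
    have hn := abs_le.1 (hnear t.1 (mulOp hB w))
    have hs := hsmall _ (norm_nonneg (mulOp hB w)) hBw
    have hp := abs_le.1 (hPw t ht ⟨(hw t ht).1, hwsa t ht⟩)
    have up : ∑ d, ell (adjoint (C.T t.1 d) * mulOp hB w * C.T t.1 d)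
        ≤ trA (mulA w (C.D t.1)) := by
      refine (C.ell_le (mulOp_mem hB w) (inner_mulOp_nonneg hB hw0) t.1).trans ?_
      rw [mulOp_mul, ell_mulOp_self]
    have low := C.le_ell hw0 t.1
    have elev : trA (mulA w ((2 : ℝ) • mulA (lev t.1) (C.D t.1) + C.err t.1))
        ≤ trA (mulA w (mulA (εA t.1) (C.D t.1))) + ρ / 4 := by
      have h1 : trA (mulA w ((2 : ℝ) • mulA (lev t.1) (C.D t.1) + C.err t.1))
          ≤ trA (mulA w (mulA (εA t.1) (C.D t.1)) + ‖t.2‖ • C.err t.1) := by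
        refine trA_mono fun χ => ?_
        simp only [val_mulA, val_add, val_smul, lev, val_sub, val_oneA]
        have hwn : val χ w ≤ ‖t.2‖ := (le_abs_self _).trans (abs_ev_le (hw t ht).1)
        have h2 : val χ w * ((1 - val χ (eA t.1)) * val χ (C.D t.1)) = 0 := by
          rw [hDe0 t.1 χ, mul_zero]
        have h3 := C.err_nonneg t.1 χ
        nlinarith [mul_le_mul_of_nonneg_right hwn h3]
      rw [trA_add, trA_smul] at h1
      have h4 : trA (C.err t.1) ≤ ρ / (4 * (W + 1)) := le_trans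
        (Finset.single_le_sum (f := fun c => trA (C.err c))
          (fun i _ => trA_nonneg (C.err_nonneg i)) (Finset.mem_univ t.1)) C.err_le
      have h5 : ‖t.2‖ * trA (C.err t.1) ≤ ρ / 4 := by
        refine (mul_le_mul (hW0 t ht) h4 (trA_nonneg (C.err_nonneg _)) hWn).trans ?_
        rw [mul_div_assoc', div_le_div_iff₀ (by positivity) (by norm_num)]
        nlinarith
      linarith
    have e2 : S.tr (t.2 * (C.D t.1 : Op H) * (1 - ε t.1))
        = trA (mulA w (C.D t.1)) - trA (mulA w (mulA (εA t.1) (C.D t.1))) := by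
      rw [mul_sub, mul_one, S.tr_sub, trA, trA, coe_mulA, coe_mulA, coe_mulA,
        S.comm _ (εA t.1).2.1 _ (C.D t.1).2.1, ← mul_assoc]
    have e3 : S.tr (t.2 * (C.D t.1 : Op H)) = trA (mulA w (C.D t.1)) := rfl
    rw [e1, e2, e3]
    constructor <;> linarith
  · have h1 : ∀ c, S.tr ((e c - (C.D c : Op H)) * ε c)
        = trA (mulA (eA c - C.D c) (εA c)) := fun c => rfl
    have h2 : ∀ c, trA (mulA (eA c - C.D c) (εA c))
        = 2 * trA (mulA (eA c - C.D c) (lev c)) := fun c => by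
      rw [← trA_smul]
      congr 1
      refine saA_ext fun χ => ?_
      simp only [val_mulA, val_sub, val_smul, lev, val_add, val_oneA]
      rcases he01 c χ with h | h
      · rw [h]; ring
      · rw [h, le_antisymm (h ▸ C.D_le c χ) (C.D_nonneg c χ)]; ring
    simp only [h1, h2, ← Finset.mul_sum]
    have h3 : trA act = S.tr e₀ := rfl
    linarith [C.count]

end Vale.Agent.P078.Tr
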