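import Vale.Agent.P078.Tr.Drift.Form
import Vale.Agent.P078.Tr.Drift.Num

/-!
# P078, one colour at one step: the drift

Against two positive forms (one for each sign) and two weights, the second variation of the
potential is at least `D p² f`.
-/

open WeakDual
open scoped ComplexOrder InnerProductSpace

noncomputable section

namespace Vale.Agent.P078.Tr

namespace Dr

universe u

variable {H : Type u} [NormedAddCommGroup H] [InnerProductSpace ℂ H] [CompleteSpace H]
variable {S : Tracial H}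

theorem opMax_mem {x y : Op H} (hx : x ∈ S.A) (hy : y ∈ S.A)
    (hxs : IsSelfAdjoint x) (hys : IsSelfAdjoint y) :
    opMax x y ∈ S.A ∧ IsSelfAdjoint (opMax x y) ∧
      ∀ φ : Chars S, (ev S φ (opMax x y)).re = max (ev S φ x).re (ev S φ y).re := by
  have hsub := sub_mem hx hy
  have hsq : star (x - y) * (x - y) ∈ S.A := mul_mem (star_mem hsub) hsub
  have hn : 0 ≤ star (x - y) * (x - y) := star_mul_self_nonneg _
  have habs : CFC.abs (x - y) = CFC.sqrt (star (x - y) * (x - y)) := rfl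
  obtain ⟨hm, hp⟩ := sqrt_mem hsq hn
  have hm' : CFC.abs (x - y) ∈ S.A := by rw [habs]; exact hm
  have hs' : IsSelfAdjoint (CFC.abs (x - y)) := by
    rw [habs]; exact sa_of_nonneg (CFC.sqrt_nonneg _)
  refine ⟨smul_memA _ (add_mem (add_mem hx hy) hm'),
    IsSelfAdjoint.smul (IsSelfAdjoint.all _) ((hxs.add hys).add hs'), fun φ => ?_⟩
  have h2 := sqrt_mul_self_re hsq hn φ
  rw [ev_mul φ (star_mem hsub) hsub, ev_star φ hsub, ← Complex.normSq_eq_conj_mul_self,
    Complex.ofReal_re, ev_sub φ hx hy, ev_real φ hx hxs, ev_real φ hy hys, ← Complex.ofReal_sub,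
    Complex.normSq_ofReal, ← pow_two, sq_eq_sq_iff_abs_eq_abs,
    abs_of_nonneg (hp φ)] at h2
  rw [opMax, habs, ev_smul φ _ (add_mem (add_mem hx hy) hm), ev_add φ (add_mem hx hy) hm,
    ev_add φ hx hy, Complex.re_ofReal_mul, Complex.add_re, Complex.add_re, h2]
  rcases le_total (ev S φ y).re (ev S φ x).re with h | h
  · rw [abs_of_nonneg (by linarith), max_eq_left h]; ring
  · rw [abs_of_nonpos (by linarith), max_eq_right h]; ring

variable (hB : Basics S) {d : Side S} {c₀ : ℝ} (hd : d.Valid c₀) {w : Op H}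

/-- The weight of the Schur terms. -/
def hsch (d : Side S) (w : Op H) : Op H := w * d.e * d.pot

/-- The coefficient of the form. -/
def kco (d : Side S) (w : Op H) (s : Bool) : Op H := hsch d w * (d.gi s * d.gi s)

/-- The cross coefficient. -/
def cco (d : Side S) (w : Op H) : Op H := w * d.e * (d.pot' * d.p)

/-- The compensator. -/
def κco (d : Side S) (w : Op H) : Op H := w * d.e * ((2 / 3 : ℝ) • d.p)

/-- The weight of the second-order term. -/
def uco (d : Side S) (w : Op H) : Op H :=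
  w * (d.e * (d.fz * (d.pot' * d.p + kB • (d.p * d.p))))

/-- The weight of the drift. -/
def nco (d : Side S) (w : Op H) : Op H := w * (d.e * (d.fz * d.pot' * (d.p * d.p)))

include hB hd in
theorem basic_mem (hw : w ∈ S.A) :
    d.p ∈ S.A ∧ d.fz ∈ S.A ∧ d.pot ∈ S.A ∧ d.pot' ∈ S.A ∧ d.eps ∈ S.A ∧
      hsch d w ∈ S.A ∧ (∀ s, kco d w s ∈ S.A) ∧ cco d w ∈ S.A ∧ κco d w ∈ S.A ∧
      uco d w ∈ S.A ∧ nco d w ∈ S.A := by
  have hp : d.p ∈ S.A := (inverse_mem hd.a_mem hd.a_unit).1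
  have hgi := fun s => (g_facts hB hd s).2.2.1
  have hfz : d.fz ∈ S.A :=
    sub_mem (sub_mem (one_mem _) (sub_mem hd.a_mem (hgi false))) (sub_mem hd.a_mem (hgi true))
  have hpot : d.pot ∈ S.A := add_mem hp (smul_memA _ (mul_mem hp hp))
  have hpot' : d.pot' ∈ S.A := add_mem (one_mem _) (smul_memA _ hp)
  have he := hd.e_mem
  exact ⟨hp, hfz, hpot, hpot', mul_mem he (smul_memA _ (mul_mem hp hfz)),
    mul_mem (mul_mem hw he) hpot, fun s => mul_mem (mul_mem (mul_mem hw he) hpot)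
      (mul_mem (hgi s) (hgi s)), mul_mem (mul_mem hw he) (mul_mem hpot' hp),
    mul_mem (mul_mem hw he) (smul_memA _ hp),
    mul_mem hw (mul_mem he (mul_mem hfz (add_mem (mul_mem hpot' hp) (smul_memA _ (mul_mem hp hp))))),
    mul_mem hw (mul_mem he (mul_mem (mul_mem hfz hpot') (mul_mem hp hp)))⟩

include hB hd in
/-- Values of the coefficients at a character. -/
theorem coeff_ev (hw : w ∈ S.A) (hw0 : 0 ≤ w) (hc : 0 < c₀) (φ : Chars S) :
    ∃ A ω E F : ℝ, ev S φ d.a = (A : ℂ) ∧ ev S φ w = (ω : ℂ) ∧ 0 ≤ ω ∧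
      ev S φ d.e = (E : ℂ) ∧ ev S φ d.fz = (F : ℂ) ∧
      F = 1 - (A - ((ev S φ (d.g false)).re)⁻¹) - (A - ((ev S φ (d.g true)).re)⁻¹) ∧
      (E = 0 ∨ (E = 1 ∧ 0 < A⁻¹ ∧ A⁻¹ ≤ 1 / 480 ∧ 0 ≤ F ∧
        ∀ s, -(1 / 100) ≤ A - ((ev S φ (d.g s)).re)⁻¹ ∧ A - ((ev S φ (d.g s)).re)⁻¹ ≤ 101 / 100 ∧
          (ev S φ (S.E (Ring.inverse (d.G s)))).re ≤ A + 1 / 100)) ∧
      ev S φ d.p = ((A⁻¹ : ℝ) : ℂ) ∧
      ev S φ d.pot = ((A⁻¹ + 204 * (A⁻¹ * A⁻¹) : ℝ) : ℂ) ∧
      ev S φ d.pot' = ((1 + 408 * A⁻¹ : ℝ) : ℂ) := by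
  obtain ⟨hp, hfz, hai, hP, hF, hcase⟩ := vals hB hd φ
  have ha := ev_real φ hd.a_mem hd.a_sa
  set A := (ev S φ d.a).re
  have hpp := mul_mem hp hp
  have e1 : ev S φ d.pot = ((A⁻¹ + 204 * (A⁻¹ * A⁻¹) : ℝ) : ℂ) := by
    rw [Side.pot, ev_add φ hp (smul_memA _ hpp), ev_smul φ _ hpp, ev_mul φ hp hp, hP, kB]
    push_cast
    ring
  have e2 : ev S φ d.pot' = ((1 + 408 * A⁻¹ : ℝ) : ℂ) := by
    rw [Side.pot', ev_add φ (one_mem _) (smul_memA _ hp), ev_smul φ _ hp, ev_one, hP, kB]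
    push_cast
    ring
  refine ⟨A, (ev S φ w).re, (ev S φ d.e).re, _, ha, ev_real φ hw (sa_of_nonneg hw0),
    re_nonneg hw hw0 φ, ev_real φ hd.e_mem hd.e_proj.isSelfAdjoint, hF, rfl, ?_, hP, e1, e2⟩
  rcases hcase with h | ⟨h, h1, h2, h3, h4⟩
  · left; rw [h, Complex.zero_re]
  · right
    have hA0 : 0 < A⁻¹ := hc.trans_le h1
    have hF0 : 0 ≤ 1 - (A - ((ev S φ (d.g false)).re)⁻¹) - (A - ((ev S φ (d.g true)).re)⁻¹) := by
      linarith
    refine ⟨by rw [h, Complex.one_re], hA0, h2, hF0, fun s => ⟨(h4 s).1, ?_, (h4 s).2⟩⟩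
    cases s <;> linarith [(h4 false).1, (h4 true).1]

include hB hd in
theorem kco_re (hw : w ∈ S.A) (hw0 : 0 ≤ w) (hc₀ : 0 < c₀) (s : Bool) (φ : Chars S) :
    (ev S φ (kco d w s)).im = 0 ∧ 0 ≤ (ev S φ (kco d w s)).re := by
  obtain ⟨hp, hfz, hpot, -, -, hh, -⟩ := basic_mem hB hd hw
  obtain ⟨A, ω, E, F, -, hω, hω0, hE, -, -, hcase, -, hP1, -⟩ := coeff_ev hB hd hw hw0 hc₀ φ
  have hgi := (g_facts hB hd s).2.2.1
  have e : ev S φ (kco d w s) = ((ω * E * (A⁻¹ + 204 * (A⁻¹ * A⁻¹)) *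
      (((ev S φ (d.g s)).re)⁻¹ * ((ev S φ (d.g s)).re)⁻¹) : ℝ) : ℂ) := by
    rw [kco, hsch, ev_mul φ (mul_mem (mul_mem hw hd.e_mem) hpot) (mul_mem hgi hgi),
      ev_mul φ (mul_mem hw hd.e_mem) hpot, ev_mul φ hw hd.e_mem, ev_mul φ hgi hgi,
      (g_facts hB hd s).2.2.2 φ, hω, hE, hP1]
    push_cast
    ring
  rw [e, Complex.ofReal_im, Complex.ofReal_re]
  refine ⟨rfl, ?_⟩
  rcases hcase with rfl | ⟨rfl, hA0, -, -, -⟩
  · simp
  · have := g_pos hB hd s φ
    positivity

include hB hd in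
theorem form_nonneg (hw : w ∈ S.A) (hw0 : 0 ≤ w) (hc₀ : 0 < c₀) (s : Bool) {b : Op H} (hb : b ∈ S.A) :
    0 ≤ S.tr (zf d s (kco d w s) (cco d w) (κco d w) b) := by
  obtain ⟨hp, hfz, hpot, hpot', -, hh, hk, hc, hκ, -⟩ := basic_mem hB hd hw
  have hz := zf_mem hB hd s (hk s) hc hκ hb
  refine tr_nonneg_re hB hz fun φ => ?_
  obtain ⟨A, ω, E, F, hA, hω, hω0, hE, -, -, hcase, hP, hP1, hP2⟩ := coeff_ev hB hd hw hw0 hc₀ φ
  obtain ⟨hg, -, hgi, hgiev⟩ := g_facts hB hd s
  have hG := hd.G_mem s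
  have hu : d.a * b ∈ S.A := mul_mem hd.a_mem hb
  have huM := S.le _ hu
  have hQ := hB.E_mem _
    (mul_mem (mul_mem (mul_mem (mul_mem hG (star_mem huM)) hG) huM) hG)
  have hW := W_mem hB hd s huM
  have hWs := W_mem hB hd s (star_mem huM)
  have hL : d.L s (d.a * b) ∈ S.A := sub_mem hu (mul_mem (mul_mem hgi hgi) hW)
  obtain ⟨hcs, hV0⟩ := L_sq_le hB hd s hu φ
  have hgp := g_pos hB hd s φ
  rcases hcase with rfl | ⟨rfl, hA0, hA1, -, hs'⟩
  · have z1 : ev S φ (w * d.e) = 0 := by rw [ev_mul φ hw hd.e_mem, hE]; simp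
    simp (disch := (repeat' (first
        | assumption
        | exact hd.e_mem
        | apply hk
        | apply sub_mem
        | apply mul_mem
        | apply star_mem
        | apply smul_memA))) only
      [zf, kco, hsch, cco, κco, ev_add, ev_sub, ev_mul φ (mul_mem hw hd.e_mem), ev_mul]
    rw [hω, hE]
    simp
  · set Γ := (ev S φ (d.g s)).re with hΓ
    set V := (ev S φ (S.E (d.G s * star (d.a * b) * d.G s * (d.a * b) * d.G s))).re -
          Complex.normSq (ev S φ (W d s (d.a * b))) / Γ with hV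
    have key := num_form (xt := (ev S φ (S.E (Ring.inverse (d.G s)))).re - Γ⁻¹)
      (l := ‖ev S φ (d.L s (d.a * b))‖) (b := ‖ev S φ b‖) hA0.le hA1 hgp hV0
      (by linarith [(hs' s).2.1, (hs' s).2.2])
      (by rw [← Complex.normSq_eq_norm_sq]; exact hcs)
    have hre : (ev S φ (zf d s (kco d w s) (cco d w) (κco d w) b)).re =
        ω * ((A⁻¹ + 204 * (A⁻¹ * A⁻¹)) * (Γ⁻¹ * Γ⁻¹) * V -
          (1 + 408 * A⁻¹) * A⁻¹ * (starRingEnd ℂ (ev S φ b) * ev S φ (d.L s (d.a * b))).re +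
          2 / 3 * A⁻¹ * Complex.normSq (ev S φ b)) := by
      simp (disch := (repeat' (first
          | assumption
          | exact hd.e_mem
          | apply hk
          | apply sub_mem
          | apply mul_mem
          | apply star_mem
          | apply smul_memA))) only
        [zf, kco, hsch, cco, κco, ev_add, ev_sub, ev_mul, ev_smul, ev_star]
      rw [W_star hB hd s huM, ev_star φ hW, hω, hE, hP, hP1, hP2, hgiev φ, ← hΓ, hV]
      rw [Complex.conj_mul', ← Complex.normSq_eq_conj_mul_self]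
      simp only [Complex.mul_re, Complex.sub_re, Complex.add_re, Complex.ofReal_re,
        Complex.mul_im, Complex.sub_im, Complex.ofReal_im, mul_zero, zero_mul, sub_zero, add_zero,
        Complex.ofReal_one, Complex.one_re, Complex.one_im, Complex.normSq_eq_norm_sq,
        ← Complex.ofReal_pow]
      field_simp
    rw [hre]
    refine mul_nonneg hω0 ?_
    have hcr : (starRingEnd ℂ (ev S φ b) * ev S φ (d.L s (d.a * b))).re ≤
        ‖ev S φ b‖ * ‖ev S φ (d.L s (d.a * b))‖ := by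
      refine (Complex.re_le_norm _).trans ?_
      rw [norm_mul, Complex.norm_conj]
    have h2 := mul_le_mul_of_nonneg_left hcr
      (show 0 ≤ (1 + 408 * A⁻¹) * A⁻¹ by positivity)
    rw [Complex.normSq_eq_norm_sq (ev S φ b)]
    linarith

/-- The largest of the two expectations and the mass. -/
def gmax (d : Side S) : Op H := opMax (opMax (d.g false) (d.g true)) d.p

/-- The diagonal remainder of one sign. -/
def rest (d : Side S) (w D : Op H) (s : Bool) : Op H :=
  kco d w s * W d s (d.mu D - d.a * d.a * D * d.g s) - hsch d w * d.mu D +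
    kco d w s * (d.g s * d.g s * d.g s) * (d.a * d.a * D)

include hB hd in
theorem gmax_facts : gmax d ∈ S.A ∧ IsSelfAdjoint (gmax d) ∧ ∀ φ : Chars S,
    (ev S φ (gmax d)).re =
      max (max (ev S φ (d.g false)).re (ev S φ (d.g true)).re) (ev S φ d.p).re := by
  have hp : d.p ∈ S.A := (inverse_mem hd.a_mem hd.a_unit).1
  have hg := fun s => g_facts hB hd s
  have hm1 := opMax_mem (hg false).1 (hg true).1 (hg false).2.1 (hg true).2.1
  have hpsa : IsSelfAdjoint d.p := by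
    refine eq_of_ev (star_mem hp) hp fun φ => ?_
    rw [ev_star φ hp, (vals hB hd φ).2.2.2.1, Complex.conj_ofReal]
  have hm2 := opMax_mem hm1.1 hp hm1.2.1 hpsa
  exact ⟨hm2.1, hm2.2.1, fun φ => by rw [gmax, hm2.2.2 φ, hm1.2.2 φ]⟩

include hB hd in
theorem mu_mem {D : Op H} (hD : D ∈ S.A) : d.mu D ∈ S.A :=
  mul_mem (mul_mem hD (mul_mem hd.a_mem hd.a_mem)) (gmax_facts hB hd).1

include hB hd in
theorem weight_nonneg (hw : w ∈ S.A) (hw0 : 0 ≤ w) (hc₀ : 0 < c₀) :
    0 ≤ uco d w ∧ 0 ≤ κco d w := by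
  obtain ⟨hp, hfz, hpot, hpot', -, -, -, -, hκ, hU, -⟩ := basic_mem hB hd hw
  suffices hreal : ∀ φ : Chars S, 0 ≤ ev S φ (uco d w) ∧ 0 ≤ ev S φ (κco d w) from
    ⟨(nonneg_iff hU).2 fun φ => (hreal φ).1, (nonneg_iff hκ).2 fun φ => (hreal φ).2⟩
  intro φ
  obtain ⟨A, ω, E, F, -, hω, hω0, hE, hF, -, hcase, hP, -, hP2⟩ := coeff_ev hB hd hw hw0 hc₀ φ
  have he := hd.e_mem
  simp (disch := (repeat' (first
      | assumption
      | apply add_mem
      | apply mul_mem
      | apply smul_memA))) only [uco, κco, ev_mul, ev_add, ev_smul]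
  rw [hω, hE, hF, hP, hP2, kB]
  simp only [← Complex.ofReal_mul, ← Complex.ofReal_add, Complex.zero_le_real]
  rcases hcase with rfl | ⟨rfl, hA0, -, hF0, -⟩
  · simp
  · constructor <;> positivity

include hB hd in
/-- The second variation, regrouped around the two forms. -/
theorem second_identity (hw : w ∈ S.A) {D : Op H} (hD : D ∈ S.A) {n : ℕ} (f : Fin n → Op H)
    (hf : ∀ j, f j ∈ S.A ∧ IsSelfAdjoint (f j)) :
    w * d.second D f = uco d w * ∑ j, f j * f j - nco d w * d.mu D +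
      ((kco d w false * W d false (d.mu D) - hsch d w * d.mu D -
          ∑ j, zf d false (kco d w false) (cco d w) (κco d w) (f j)) +
        (kco d w true * W d true (d.mu D) - hsch d w * d.mu D -
          ∑ j, zf d true (kco d w true) (cco d w) (κco d w) (f j))) +
      (κco d w * ∑ j, f j * f j + κco d w * ∑ j, f j * f j) := by
  obtain ⟨hp, hfz, hpot, hpot', -, hh, hk, hc, hκ, -, -⟩ := basic_mem hB hd hw
  have he := hd.e_mem
  have ha := hd.a_mem
  have hmu := mu_mem hB hd hD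
  have hfj := fun j => (hf j).1
  have hfM : ∀ j, d.a * f j ∈ S.M := fun j => S.le _ (mul_mem ha (hfj j))
  have hWj : ∀ s j, W d s (d.a * f j) ∈ S.A := fun s j => W_mem hB hd s (hfM j)
  have hWmu : ∀ s, W d s (d.mu D) ∈ S.A := fun s => W_mem hB hd s (S.le _ hmu)
  have hgi := fun s => (g_facts hB hd s).2.2.1
  have hQ : ∀ s j, S.E (d.G s * (d.a * f j) * d.G s * (d.a * f j) * d.G s) ∈ S.A := fun s j =>
    hB.E_mem _ (mul_mem (mul_mem (mul_mem (mul_mem (hd.G_mem s) (hfM j)) (hd.G_mem s)) (hfM j))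
      (hd.G_mem s))
  have hL : ∀ s j, d.L s (d.a * f j) ∈ S.A := fun s j =>
    sub_mem (mul_mem ha (hfj j)) (mul_mem (mul_mem (hgi s) (hgi s)) (hWj s j))
  have hstar : ∀ j, star (d.a * f j) = d.a * f j := fun j => by
    rw [star_mul, (hf j).2.star_eq, hd.a_sa.star_eq, S.comm _ (hfj j) _ ha]
  let i : (S.A : StarSubalgebra ℂ (Op H)) →+* Op H := (S.A.subtype).toRingHom
  let m : ∀ x : Op H, x ∈ S.A → S.Alg := fun x hx => ⟨x, hx⟩
  have key := congrArg Subtype.val (wsum_identity (α := S.Alg) (m w hw) (m d.e he) (m d.fz hfz)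
    (m d.pot hpot) (m d.pot' hpot') (m d.p hp) (m _ (hgi false)) (m _ (hgi true)) (m _ hmu)
    (m _ (hWmu false)) (m _ (hWmu true)) (fun j => m _ (hfj j)) (fun j => m _ (hQ false j))
    (fun j => m _ (hQ true j)) (fun j => m _ (hWj false j)) (fun j => m _ (hWj true j))
    (fun j => m _ (hL false j)) (fun j => m _ (hL true j)) (m (kB • (1 : Op H))
      (smul_memA _ (one_mem _))) (m _ hκ))
  simp only [m, MulMemClass.coe_mul, AddMemClass.coe_add, AddSubgroupClass.coe_sub,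
    NegMemClass.coe_neg, AddSubmonoidClass.coe_finsetSum, smul_mul_assoc, one_mul] at key
  simp only [zf, uco, nco, kco, cco, hsch, Side.second, Side.xi2, W, hstar,
    (fun j => (hf j).2.star_eq)]
  exact key

include hB hd in
/-- The pointwise inequality, in trace form. -/
theorem point (hw : w ∈ S.A) (hw0 : 0 ≤ w) (hc₀ : 0 < c₀) {D : Op H} (hD : D ∈ S.A)
    (hD0 : 0 ≤ D) :
    S.tr (w * (d.e * (D * (d.p * d.p) * d.fz))) ≤
      S.tr (uco d w * D * (1 - d.eps) - nco d w * d.mu D -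
        (κco d w * D * d.eps + κco d w * D * d.eps) + (rest d w D false + rest d w D true)) := by
  obtain ⟨hp, hfz, hpot, hpot', heps, hh, hk, -, hκ, hU, hN⟩ := basic_mem hB hd hw
  have he := hd.e_mem
  have ha := hd.a_mem
  have hg := fun s => g_facts hB hd s
  have hgi := fun s => (hg s).2.2.1
  obtain ⟨hM, hMsa, hMre'⟩ := gmax_facts hB hd
  have hmu := mu_mem hB hd hD
  have hν : ∀ s, d.mu D - d.a * d.a * D * d.g s ∈ S.A := fun s =>
    sub_mem hmu (mul_mem (mul_mem (mul_mem ha ha) hD) (hg s).1)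
  have hWν : ∀ s, W d s (d.mu D - d.a * d.a * D * d.g s) ∈ S.A := fun s =>
    W_mem hB hd s (S.le _ (hν s))
  have hde : 1 - d.eps ∈ S.A := sub_mem (one_mem _) heps
  have hrest : ∀ s, rest d w D s ∈ S.A := fun s =>
    add_mem (sub_mem (mul_mem (hk s) (hWν s)) (mul_mem hh hmu))
      (mul_mem (mul_mem (hk s) (mul_mem (mul_mem (hg s).1 (hg s).1) (hg s).1))
        (mul_mem (mul_mem ha ha) hD))
  refine tr_mono_re hB (mul_mem hw (mul_mem he (mul_mem (mul_mem hD (mul_mem hp hp)) hfz)))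
    (add_mem (sub_mem (sub_mem (mul_mem (mul_mem hU hD) hde) (mul_mem hN hmu))
      (add_mem (mul_mem (mul_mem hκ hD) heps) (mul_mem (mul_mem hκ hD) heps)))
      (add_mem (hrest false) (hrest true))) fun φ => ?_
  obtain ⟨A, ω, E, F, hA, hω, hω0, hE, hF, hFdef, hcase, hP, hP1, hP2⟩ :=
    coeff_ev hB hd hw hw0 hc₀ φ
  have hDr := ev_real φ hD (sa_of_nonneg hD0)
  have hD1 := re_nonneg hD hD0 φ
  have hev : ∀ s, ev S φ (d.g s) = (((ev S φ (d.g s)).re : ℝ) : ℂ) := fun s =>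
    ev_real φ (hg s).1 (hg s).2.1
  have hMre : (ev S φ (gmax d)).re =
      max (max (ev S φ (d.g false)).re (ev S φ (d.g true)).re) A⁻¹ := by
    rw [hMre' φ, hP, Complex.ofReal_re]
  have hMr := ev_real φ hM hMsa
  have hWlow : ∀ s, (ev S φ (d.g s)).re ^ 2 *
      (A * A * (ev S φ D).re * ((ev S φ (gmax d)).re -
        (ev S φ (d.g s)).re)) ≤
      (ev S φ (W d s (d.mu D - d.a * d.a * D * d.g s))).re := by
    intro s
    have hν0 : ∀ ψ : Chars S, ev S ψ (d.mu D - d.a * d.a * D * d.g s) =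
        (((ev S ψ d.a).re * (ev S ψ d.a).re * (ev S ψ D).re *
          ((ev S ψ (gmax d)).re -
            (ev S ψ (d.g s)).re) : ℝ) : ℂ) := fun ψ => by
      rw [show d.mu D = D * (d.a * d.a) * gmax d from rfl, ev_sub ψ (mul_mem (mul_mem hD (mul_mem ha ha)) hM)
        (mul_mem (mul_mem (mul_mem ha ha) hD) (hg s).1),
        ev_mul ψ (mul_mem hD (mul_mem ha ha)) hM, ev_mul ψ hD (mul_mem ha ha), ev_mul ψ ha ha,
        ev_mul ψ (mul_mem (mul_mem ha ha) hD) (hg s).1, ev_mul ψ (mul_mem ha ha) hD,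
        ev_mul ψ ha ha, ev_real ψ ha hd.a_sa, ev_real ψ hD (sa_of_nonneg hD0),
        ev_real ψ hM hMsa, ev_real ψ (hg s).1 (hg s).2.1]
      simp only [Complex.ofReal_re]
      push_cast
      ring
    have hpos : ∀ ψ : Chars S, 0 ≤ (ev S ψ (d.mu D - d.a * d.a * D * d.g s)).re := fun ψ => by
      rw [hν0 ψ, Complex.ofReal_re]
      refine mul_nonneg (mul_nonneg (mul_self_nonneg _) (re_nonneg hD hD0 ψ)) ?_
      rw [hMre' ψ, sub_nonneg]
      cases s
      · exact le_max_of_le_left (le_max_left _ _)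
      · exact le_max_of_le_left (le_max_right _ _)
    have hsaν : IsSelfAdjoint (d.mu D - d.a * d.a * D * d.g s) := by
      refine eq_of_ev (star_mem (hν s)) (hν s) fun ψ => ?_
      rw [ev_star ψ (hν s), hν0 ψ, Complex.conj_ofReal]
    have := W_ge hB hd s (hν s) hpos hsaν φ
    rw [hν0 φ, Complex.ofReal_re, hA, Complex.ofReal_re] at this
    exact this
  have hμ : ev S φ (d.mu D) = ev S φ D * (ev S φ d.a * ev S φ d.a) * ev S φ (gmax d) := by
    rw [show d.mu D = D * (d.a * d.a) * gmax d from rfl,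
      ev_mul φ (mul_mem hD (mul_mem ha ha)) hM, ev_mul φ hD (mul_mem ha ha), ev_mul φ ha ha]
  simp (disch := (repeat' (first
      | assumption
      | apply hk
      | apply hWν
      | apply hgi
      | exact (hg _).1
      | apply add_mem
      | apply sub_mem
      | apply mul_mem
      | apply smul_memA
      | exact one_mem _))) only
    [rest, uco, nco, kco, hsch, κco, Side.eps, ev_add, ev_sub, ev_mul, ev_smul, ev_one, hμ]
  rw [hω, hE, hF, hP, hP1, hP2, hA, hDr, hMr, hev false, hev true, (hg false).2.2.2 φ,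
    (hg true).2.2.2 φ, kB, kK]
  simp only [Complex.add_re, Complex.sub_re, Complex.mul_re, Complex.add_im, Complex.sub_im,
    Complex.mul_im, Complex.ofReal_re, Complex.ofReal_im, Complex.one_re, Complex.one_im,
    mul_zero, zero_mul, sub_zero, add_zero]
  rcases hcase with rfl | ⟨rfl, hA0, hA1, hF0, hs'⟩
  · simp
  · have := num_drift (M := (ev S φ (gmax d)).re) hω0 hD1
      (g_pos hB hd false φ) (g_pos hB hd true φ) hA1 hA0 hFdef hF0 (hs' false).1 (hs' true).1
      (le_of_eq hMre) (hWlow false) (hWlow true)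
    linarith [this]

end Dr

universe u

open Dr in
/-- Module Drift. -/
theorem drift : DriftStatement.{u} := by
  intro H _ _ _ S d c₀ w hB hc₀ hd hw hw0
  obtain ⟨hp, hfz, hpot, hpot', heps, hh, hk, hc, hκ, hU, hN⟩ := basic_mem hB hd hw
  let Φ : Bool → QForm S := fun s => form hB hd s (hk s) hc hκ
  refine ⟨[Φ false, Φ true], [uco d w, κco d w], 5, ?_, ?_, ?_⟩
  · intro Ψ hΨ b hb
    have : ∀ s, 0 ≤ (Φ s).eval b := fun s => by
      change 0 ≤ (form hB hd s (hk s) hc hκ).eval b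
      rw [eval_form hB hd s (hk s) hc hκ hb]
      exact form_nonneg hB hd hw hw0 hc₀ s hb
    simp only [List.mem_cons, List.not_mem_nil, or_false] at hΨ
    rcases hΨ with rfl | rfl <;> exact this _
  · intro v hv
    simp only [List.mem_cons, List.not_mem_nil, or_false] at hv
    rcases hv with rfl | rfl
    · exact ⟨hU, (weight_nonneg hB hd hw hw0 hc₀).1⟩
    · exact ⟨hκ, (weight_nonneg hB hd hw hw0 hc₀).2⟩
  intro D n f ρ hρ hD hD0 hDe hf hΦ hws
  have hg := fun s => g_facts hB hd s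
  have ha := hd.a_mem
  have hfj := fun j => (hf j).1
  have hmu := mu_mem hB hd hD
  have hwsu := hws (uco d w) List.mem_cons_self
  have hwsκ := hws (κco d w) (List.mem_cons_of_mem _ List.mem_cons_self)
  have hsum : ∀ v : Op H, ∑ j, S.tr (v * (f j * f j)) = S.tr (v * ∑ j, f j * f j) := fun v => by
    rw [Finset.mul_sum, tr_sum]
  rw [hsum] at hwsu hwsκ
  have hDa : ∀ φ : Chars S, 0 < (ev S φ D).re → 0 ≤ (ev S φ d.a).re := by
    intro φ hpos
    obtain ⟨A, ω, E, F, hA, -, -, hE, -, -, hcase, -⟩ := coeff_ev hB hd hw hw0 hc₀ φ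
    have := re_le hD hd.e_mem hDe φ
    rw [hE, Complex.ofReal_re] at this
    rcases hcase with rfl | ⟨-, hA0, -⟩
    · linarith
    · rw [hA, Complex.ofReal_re]; exact (inv_pos.1 hA0).le
  have hforms : ∀ s, S.tr (∑ j, zf d s (kco d w s) (cco d w) (κco d w) (f j)) ≤
      S.tr (kco d w s * W d s (d.a * d.a * D * d.g s)) -
        S.tr (kco d w s * (d.g s * d.g s * d.g s) * (d.a * d.a * D)) +
        S.tr (κco d w * D) + ρ := by
    intro s
    have h := forms_bound hB hd s (hk s) hc hκ (fun φ => (kco_re hB hd hw hw0 hc₀ s φ).2)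
      (fun φ => (kco_re hB hd hw hw0 hc₀ s φ).1) hD hD0 hDa f (hΦ (Φ s) (by cases s <;> simp))
    rw [Finset.sum_congr rfl fun j _ => eval_form hB hd s (hk s) hc hκ (hfj j), ← tr_sum] at h
    exact h
  have hff := hforms false
  have hft := hforms true
  have hWsub : ∀ s, W d s (d.mu D - d.a * d.a * D * d.g s) =
      W d s (d.mu D) - W d s (d.a * d.a * D * d.g s) := fun s => by
    have hG := hd.G_mem s
    have hm : d.a * d.a * D * d.g s ∈ S.A := mul_mem (mul_mem (mul_mem ha ha) hD) (hg s).1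
    rw [eq_sub_iff_add_eq, W, W, W,
      ← hB.E_add _ (mul_mem (mul_mem hG (S.le _ (sub_mem hmu hm))) hG) _
        (mul_mem (mul_mem hG (S.le _ hm)) hG)]
    congr 1
    simp only [mul_sub, sub_mul, sub_add_cancel]
  have hp' := point hB hd hw hw0 hc₀ hD hD0
  rw [second_identity hB hd hw hD f fun j => ⟨(hf j).1, (hf j).2.1⟩]
  simp only [rest, hWsub, tr_add, tr_sub, mul_sub, mul_one] at hp' hwsu hwsκ ⊢
  linarith [hwsu.1, hwsκ.1]

end Vale.Agent.P078.Tr
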