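import Vale.Agent.P078.Tr.Basics
import Vale.Agent.P078.Tr.Cov
import Vale.Agent.P078.Tr.Drift
import Vale.Agent.P078.Tr.Iter.Cleanup
import Vale.Agent.P078.Tr.Iter.Walk
import Vale.Agent.P078.Tr.Iter.Reduce
import Vale.Agent.P078.Tr.Iter.Step.Expand
import Vale.Agent.P078.Tr.Iter.Step

/-!
# The tracial paving theorem
-/

noncomputable section

namespace Vale.Agent.P078.Tr

universe u

/-- Every MASA of every von Neumann algebra with a faithful normal tracial state has so-paving
number `O(ε⁻²)`. -/
theorem tracial_paving : TracialPavingStatement.{u} :=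
  Iter.tracial_paving_of_walk basics
    (Iter.walk Iter.cleanup (Iter.step cov drift Iter.expand))

end Vale.Agent.P078.Tr
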