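import Vale.Agent.P078.Tr.Basics.Closed

/-!
`A` as a commutative C*-algebra: inequalities between its elements are checked at characters.
-/

open scoped ComplexOrder InnerProductSpace

noncomputable section

namespace Vale.Agent.P078.Tr

universe u

variable {H : Type u} [NormedAddCommGroup H] [InnerProductSpace ℂ H] [CompleteSpace H]

namespace Tracial

variable (S : Tracial H)

/-- The MASA as a type. -/
abbrev Alg : Type u := S.A

/-- The characters of `A`. -/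
abbrev Chi : Type u := WeakDual.characterSpace ℂ S.Alg

open scoped Classical in
/-- The value of an operator of `A` at a character (junk outside `A`). -/
def evC (χ : S.Chi) (x : Op H) : ℂ := if h : x ∈ S.A then χ ⟨x, h⟩ else 0

/-- Its real part. -/
def ev (χ : S.Chi) (x : Op H) : ℝ := (S.evC χ x).re

variable {S} {χ : S.Chi} {x y : Op H}

lemma evC_of_mem (h : x ∈ S.A) : S.evC χ x = χ ⟨x, h⟩ := dif_pos h

lemma evC_add (hx : x ∈ S.A) (hy : y ∈ S.A) :
    S.evC χ (x + y) = S.evC χ x + S.evC χ y := by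
  rw [evC_of_mem hx, evC_of_mem hy, evC_of_mem (add_mem hx hy)]
  exact map_add χ (⟨x, hx⟩ : S.Alg) ⟨y, hy⟩

lemma evC_mul (hx : x ∈ S.A) (hy : y ∈ S.A) :
    S.evC χ (x * y) = S.evC χ x * S.evC χ y := by
  rw [evC_of_mem hx, evC_of_mem hy, evC_of_mem (mul_mem hx hy)]
  exact map_mul χ (⟨x, hx⟩ : S.Alg) ⟨y, hy⟩

lemma evC_smul (c : ℂ) (hx : x ∈ S.A) : S.evC χ (c • x) = c * S.evC χ x := by
  rw [evC_of_mem hx, evC_of_mem (S.A.smul_mem hx c)]
  exact map_smul χ c (⟨x, hx⟩ : S.Alg)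

lemma evC_star (hx : x ∈ S.A) : S.evC χ (star x) = starRingEnd ℂ (S.evC χ x) := by
  rw [evC_of_mem hx, evC_of_mem (star_mem hx)]
  exact map_star χ (⟨x, hx⟩ : S.Alg)

lemma evC_im (hx : x ∈ S.A) (h : IsSelfAdjoint x) : (S.evC χ x).im = 0 := by
  have e := evC_star (χ := χ) hx
  rw [h.star_eq] at e
  exact Complex.conj_eq_iff_im.1 e.symm

lemma smul_real_mem (c : ℝ) (hx : x ∈ S.A) : c • x ∈ S.A := by
  rw [← Complex.coe_smul]; exact S.A.smul_mem hx _

@[simp] lemma ev_one : S.ev χ (1 : Op H) = 1 := by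
  rw [ev, evC_of_mem (one_mem _)]
  show (χ (1 : S.Alg)).re = 1
  rw [map_one]; simp

@[simp] lemma ev_zero : S.ev χ (0 : Op H) = 0 := by
  rw [ev, evC_of_mem (zero_mem _)]
  show (χ (0 : S.Alg)).re = 0
  rw [map_zero]; simp

lemma ev_add (hx : x ∈ S.A) (hy : y ∈ S.A) : S.ev χ (x + y) = S.ev χ x + S.ev χ y := by
  rw [ev, evC_add hx hy, Complex.add_re]; rfl

lemma ev_mul (hx : x ∈ S.A) (hy : y ∈ S.A) (h : IsSelfAdjoint x) :
    S.ev χ (x * y) = S.ev χ x * S.ev χ y := by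
  rw [ev, evC_mul hx hy, Complex.mul_re, evC_im hx h, zero_mul, sub_zero]; rfl

lemma ev_smul (c : ℝ) (hx : x ∈ S.A) : S.ev χ (c • x) = c * S.ev χ x := by
  rw [ev, ← Complex.coe_smul, evC_smul _ hx, Complex.re_ofReal_mul]; rfl

lemma ev_neg (hx : x ∈ S.A) : S.ev χ (-x) = -S.ev χ x := by
  rw [← neg_one_smul ℝ x, ev_smul _ hx, neg_one_mul]

lemma ev_sub (hx : x ∈ S.A) (hy : y ∈ S.A) : S.ev χ (x - y) = S.ev χ x - S.ev χ y := by
  rw [sub_eq_add_neg, ev_add hx (neg_mem hy), ev_neg hy, sub_eq_add_neg]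

lemma ev_sum {ι : Type*} (s : Finset ι) (f : ι → Op H) (h : ∀ i ∈ s, f i ∈ S.A) :
    S.ev χ (∑ i ∈ s, f i) = ∑ i ∈ s, S.ev χ (f i) := by
  classical
  induction s using Finset.induction_on with
  | empty => simp
  | insert i s hi ih =>
    rw [Finset.sum_insert hi, Finset.sum_insert hi, ev_add (h i (Finset.mem_insert_self i s))
      (sum_mem fun j hj => h j (Finset.mem_insert_of_mem hj)),
      ih fun j hj => h j (Finset.mem_insert_of_mem hj)]

lemma abs_ev_le (hx : x ∈ S.A) : |S.ev χ x| ≤ ‖x‖ := by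
  rw [ev, evC_of_mem hx]
  have hs : χ ⟨x, hx⟩ ∈ spectrum ℂ x := by
    have := WeakDual.CharacterSpace.apply_mem_spectrum χ (⟨x, hx⟩ : S.Alg)
    rwa [StarSubalgebra.spectrum_eq] at this
  refine (Complex.abs_re_le_norm _).trans ((spectrum.norm_le_norm_mul_of_mem hs).trans ?_)
  exact mul_le_of_le_one_right (norm_nonneg _) ContinuousLinearMap.norm_id_le

lemma isSelfAdjoint_coe {a : S.Alg} : IsSelfAdjoint (a : Op H) ↔ IsSelfAdjoint a :=
  ⟨fun h => Subtype.ext h.star_eq, fun h => congrArg Subtype.val h.star_eq⟩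

/-- A self-adjoint element of `A` is positive iff it is positive at all characters. -/
lemma nonneg_iff (hx : x ∈ S.A) (h : IsSelfAdjoint x) : 0 ≤ x ↔ ∀ χ : S.Chi, 0 ≤ S.ev χ x := by
  constructor
  · intro h0 χ
    have hs : χ ⟨x, hx⟩ ∈ spectrum ℂ x := by
      have := WeakDual.CharacterSpace.apply_mem_spectrum χ (⟨x, hx⟩ : S.Alg)
      rwa [StarSubalgebra.spectrum_eq] at this
    rw [ev, evC_of_mem hx]
    exact (Complex.nonneg_iff.1 (spectrum_nonneg_of_nonneg h0 hs)).1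
  · intro h0
    let G := gelfandStarTransform S.Alg
    have hc : Continuous fun χ : S.Chi => χ ⟨x, hx⟩ := (G ⟨x, hx⟩).continuous
    let y : S.Alg := G.symm ⟨fun χ => ((Real.sqrt (χ ⟨x, hx⟩).re : ℝ) : ℂ),
      Complex.continuous_ofReal.comp (Real.continuous_sqrt.comp (Complex.continuous_re.comp hc))⟩
    have e : star y * y = (⟨x, hx⟩ : S.Alg) := by
      apply EquivLike.injective G
      rw [map_mul, map_star, StarAlgEquiv.apply_symm_apply]
      ext χ
      have h1 : (χ ⟨x, hx⟩).im = 0 := by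
        simpa [evC_of_mem hx] using evC_im (χ := χ) hx h
      have h2 : 0 ≤ (χ ⟨x, hx⟩).re := by simpa [ev, evC_of_mem hx] using h0 χ
      show starRingEnd ℂ ((Real.sqrt _ : ℝ) : ℂ) * ((Real.sqrt _ : ℝ) : ℂ) = χ ⟨x, hx⟩
      rw [Complex.conj_ofReal, ← Complex.ofReal_mul, Real.mul_self_sqrt h2]
      exact Complex.ext (by simp) (by simp [h1])
    have := congrArg Subtype.val e
    rw [show x = star (y : Op H) * (y : Op H) from this.symm]
    exact star_mul_self_nonneg _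

lemma le_iff (hx : x ∈ S.A) (hy : y ∈ S.A) (h : IsSelfAdjoint x) (h' : IsSelfAdjoint y) :
    x ≤ y ↔ ∀ χ : S.Chi, S.ev χ x ≤ S.ev χ y := by
  rw [← sub_nonneg, nonneg_iff (sub_mem hy hx) (h'.sub h)]
  simp only [ev_sub hy hx, sub_nonneg]

lemma ext_iff_ev (hx : x ∈ S.A) (hy : y ∈ S.A) (h : IsSelfAdjoint x) (h' : IsSelfAdjoint y) :
    x = y ↔ ∀ χ : S.Chi, S.ev χ x = S.ev χ y :=
  ⟨fun e _ => e ▸ rfl, fun e => le_antisymm ((le_iff hx hy h h').2 fun _χ => (e _χ).le)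
    ((le_iff hy hx h' h).2 fun χ => (e χ).ge)⟩

end Tracial

end Vale.Agent.P078.Tr
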